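import Vale.Agent.P188.Z1.Neut
import Vale.Agent.P188.H382.Haar

/-!
# P188, route A, N2: a net of few neutral elements

`neutral_net`: the neutral elements `ex y`, `nm y ≤ e ^ (δ R)`, are within bounded distance (from the
left) of `C₁ e ^ (C₁ δ R)` of them.
-/

set_option linter.all false

open MeasureTheory Set
open scoped ENNReal

namespace Vale.Agent.P188.H83

open Vale.Agent.P188.Z1 Vale.Agent.P188.Z1.RModel

variable {S : Type} [Group S] [MeasurableSpace S] {Γ : Type} [Group Γ]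
  {V : Type} [AddCommGroup V] [Module ℝ V] {k : ℕ} {M : RModel S Γ V k}

theorem l_prod_le (L : List S) (c : ℝ) (h : ∀ a ∈ L, (M.l a : ℝ) ≤ c) :
    (M.l L.prod : ℝ) ≤ L.length * c := by
  induction L with
  | nil => simp [M.len.one]
  | cons a L ih =>
    rw [List.prod_cons, List.length_cons]
    have h1 : (M.l (a * L.prod) : ℝ) ≤ M.l a + M.l L.prod := by exact_mod_cast M.len.mul a L.prod
    have h2 := ih fun b hb => h b (List.mem_cons_of_mem _ hb)
    have h3 := h a List.mem_cons_self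
    push_cast
    linarith

/-- the elements of a box of bounded size have bounded length -/
theorem len_Bx (B : M.NatBox) (r : ℝ) (hr : 0 ≤ r) : ∃ C : ℕ, ∀ u ∈ B.Bx (fun _ => r),
    M.l u ≤ C := by
  have hC0 : 0 ≤ M.C0 := le_trans zero_le_one M.one_le_C0
  have hC : 0 ≤ B.C := le_trans zero_le_one B.one_le
  refine ⟨⌈(B.m : ℝ) * (M.C0 * (1 + B.C * r))⌉₊, fun u hu => ?_⟩
  obtain ⟨x, hx, rfl⟩ := B.gen (fun _ => r) (fun _ => hr) u hu
  have h1 := l_prod_le (M := M) (List.ofFn fun t => M.ex (x t • M.X (B.J t)))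
    (M.C0 * (1 + B.C * r)) (by
      intro a ha
      obtain ⟨t, rfl⟩ := (List.mem_ofFn' _ _).1 ha
      refine (M.met_V _).trans (mul_le_mul_of_nonneg_left ?_ hC0)
      have h2 : M.nm (x t • M.X (B.J t)) = |x t| * M.nm (M.X (B.J t)) := by
        rw [map_smul_eq_mul, Real.norm_eq_abs]
      rw [h2]
      have h3 : |x t| * M.nm (M.X (B.J t)) ≤ B.C * r * 1 :=
        mul_le_mul (hx t) (M.X_le _) (apply_nonneg _ _) (by positivity)
      linarith)
  rw [List.length_ofFn] at h1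
  exact_mod_cast h1.trans (Nat.le_ceil _)

/-- **A net of few neutral elements.** -/
theorem neutral_net (B : M.NatBox) : ∃ C : ℕ, ∃ C₁ : ℝ, 0 < C₁ ∧ ∀ δ : ℝ, 0 < δ → ∀ R : ℕ,
    ∃ Nt : Finset S, (Nt.card : ℝ) ≤ C₁ * Real.exp (C₁ * δ * R) ∧
      (∀ ν ∈ Nt, ∃ y ∈ M.Vw 0, M.nm y ≤ Real.exp (δ * R) ∧ ν = M.ex y) ∧
      ∀ y ∈ M.Vw 0, M.nm y ≤ Real.exp (δ * R) → ∃ ν ∈ Nt, M.l (M.ex y * ν⁻¹) ≤ C := by
  classical
  have hBC : 0 ≤ B.C := le_trans zero_le_one B.one_le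
  obtain ⟨Cv, a, hCv, hvol⟩ := DB.dbl_poly B
  obtain ⟨C, hC⟩ := len_Bx B B.C hBC
  have hK0 : (0 : ℝ) ≤ Cv * (2 * B.C ^ 2) ^ a := by positivity
  refine ⟨C, max 1 (max (Cv * (2 * B.C ^ 2) ^ a) a), lt_max_of_lt_left one_pos,
    fun δ hδ R => ?_⟩
  set K : ℝ := max 1 (max (Cv * (2 * B.C ^ 2) ^ a) a) with hK
  have hK1 : Cv * (2 * B.C ^ 2) ^ a ≤ K := (le_max_left _ _).trans (le_max_right _ _)
  have hKa : (a : ℝ) ≤ K := (le_max_right _ _).trans (le_max_right _ _)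
  set E : ℝ := Real.exp (δ * R) with hE
  have hE1 : 1 ≤ E := Real.one_le_exp (by positivity)
  set r : ℝ := B.C * (1 + E) with hr
  have hr1 : 1 ≤ r := by
    calc (1 : ℝ) ≤ B.C * 1 := by rw [mul_one]; exact B.one_le
      _ ≤ B.C * (1 + E) := by gcongr; linarith
  set P : Set S := {z | ∃ y ∈ M.Vw 0, M.nm y ≤ E ∧ z = (M.ex y)⁻¹} with hPdef
  have hPB : P ⊆ B.Bx (fun _ => r) := by
    rintro z ⟨y, hy, hny, rfl⟩
    refine B.inv _ _ (B.mono (M.two (B.C * (1 + M.nm y)) 1) _ ?_ ?_ (B.ball_0 y hy))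
    · intro i
      unfold RModel.two
      split_ifs
      · have := apply_nonneg M.nm y; positivity
      · exact zero_le_one
    · intro i
      unfold RModel.two
      split_ifs
      · rw [hr]; gcongr
      · exact hr1
  have hmem1 : (1 : S) ∈ B.Bx (fun _ => 1) := B.one _ fun _ => zero_le_one
  obtain ⟨Y, hYP, hYcard, hYcov⟩ := H382.exists_net (S := S) M.μ M.mpl (P := P)
    (P' := B.Bx (fun _ => B.C * r)) (B0 := B.Bx (fun _ => 1)) (B.meas _)
    (B.pos _ fun _ => one_pos) hmem1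
    (fun y hy b hb => B.mul (fun _ => r) (fun _ => by positivity) y (hPB hy) b
      (B.mono _ _ (fun _ => zero_le_one) (fun _ => hr1) hb)) (B.fin _)
  -- the cardinality
  have hcard : (Y.card : ℝ) ≤ Cv * (B.C * r) ^ a := by
    have h1 : 1 ≤ B.C * r := one_le_mul_of_one_le_of_one_le B.one_le hr1
    have h2 := hvol (B.C * r) h1 (fun _ => 1) fun _ => one_pos
    simp only [mul_one] at h2
    have h3 := hYcard.trans h2
    have h4 : (Y.card : ℝ≥0∞) ≤ ENNReal.ofReal (Cv * (B.C * r) ^ a) :=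
      (ENNReal.mul_le_mul_iff_left (B.pos _ fun _ => one_pos) (B.fin _)).1 h3
    have h5 : (0 : ℝ) ≤ Cv * (B.C * r) ^ a := by positivity
    have h6 := ENNReal.toReal_mono ENNReal.ofReal_ne_top h4
    rwa [ENNReal.toReal_natCast, ENNReal.toReal_ofReal h5] at h6
  refine ⟨Y.image (·⁻¹), ?_, ?_, ?_⟩
  · have h1 : ((Y.image (·⁻¹)).card : ℝ) ≤ Y.card := by exact_mod_cast Finset.card_image_le
    have h2 : B.C * r ≤ 2 * B.C ^ 2 * E := by
      rw [hr]
      have : B.C * (B.C * (1 + E)) = B.C ^ 2 * (1 + E) := by ring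
      rw [this]
      have h3 : B.C ^ 2 * (1 + E) ≤ B.C ^ 2 * (E + E) := by gcongr
      linarith
    calc ((Y.image (·⁻¹)).card : ℝ) ≤ Cv * (B.C * r) ^ a := h1.trans hcard
      _ ≤ Cv * (2 * B.C ^ 2 * E) ^ a := by
          have : 0 ≤ B.C * r := by positivity
          gcongr
      _ = (Cv * (2 * B.C ^ 2) ^ a) * E ^ a := by rw [mul_pow]; ring
      _ ≤ K * Real.exp (K * δ * R) := by
          have h7 : E ^ a = Real.exp (a * (δ * R)) := by rw [hE, ← Real.exp_nat_mul]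
          rw [h7]
          have h8 : (a : ℝ) * (δ * R) ≤ K * δ * R := by
            rw [mul_assoc]
            exact mul_le_mul_of_nonneg_right hKa (by positivity)
          exact mul_le_mul hK1 (Real.exp_le_exp.2 h8) (Real.exp_pos _).le (hK0.trans hK1)
  · intro ν hν
    obtain ⟨z, hz, rfl⟩ := Finset.mem_image.1 hν
    obtain ⟨y, hy, hny, rfl⟩ := hYP z hz
    exact ⟨y, hy, hny, inv_inv _⟩
  · intro y hy hny
    obtain ⟨y', hy', b, hb, b', hb', e⟩ := hYcov (M.ex y)⁻¹ ⟨y, hy, hny, rfl⟩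
    refine ⟨y'⁻¹, Finset.mem_image_of_mem _ hy', ?_⟩
    have h1 : M.ex y * y'⁻¹⁻¹ = b * b'⁻¹ := by
      rw [inv_inv, eq_mul_inv_iff_mul_eq, mul_assoc, ← e, mul_inv_cancel_left]
    rw [h1]
    have h2 := B.mul (fun _ => 1) (fun _ => zero_le_one) b hb b'⁻¹ (B.inv _ _ hb')
    simp only [mul_one] at h2
    exact hC _ h2

end Vale.Agent.P188.H83
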